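import Mathlib

/-!
Sums of segments, and the volume gained by adding one segment to a convex body.
-/

namespace Vale.Agent.P237.Zono

open MeasureTheory Set Pointwise

variable {M N : Type*} [AddCommGroup M] [Module ℝ M] [AddCommGroup N] [Module ℝ N]
variable {ι : Type*} [Fintype ι]

/-- The sum of the segments `[-s_i, s_i]`. -/
def box (s : ι → M) : Set M := (fun c : ι → ℝ => ∑ i, c i • s i) '' univ.pi fun _ => Icc (-1) 1

/-- The segment `[-u, u]`. -/
def segm (u : M) : Set M := (fun t : ℝ => t • u) '' Icc (-1) 1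

theorem box_map (f : M →ₗ[ℝ] N) (s : ι → M) : f '' box s = box (fun i => f (s i)) := by
  rw [box, box, image_image]
  simp

theorem segm_map (f : M →ₗ[ℝ] N) (u : M) : f '' segm u = segm (f u) := by
  rw [segm, segm, image_image]
  simp

theorem box_nonempty (s : ι → M) : (box s).Nonempty :=
  ⟨_, 0, fun i _ => by simp, rfl⟩

theorem box_convex (s : ι → M) : Convex ℝ (box s) := by
  have : box s = (Fintype.linearCombination ℝ s) '' univ.pi fun _ => Icc (-1) 1 := by
    rw [box]
    congr 1
  rw [this]
  have h : Convex ℝ (univ.pi fun _ : ι => Icc (-1 : ℝ) 1) :=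
    convex_pi fun i _ => convex_Icc _ _
  exact h.linear_image _

theorem box_compact [TopologicalSpace M] [ContinuousSMul ℝ M] [ContinuousAdd M] (s : ι → M) :
    IsCompact (box s) :=
  (isCompact_univ_pi fun _ => isCompact_Icc).image
    (continuous_finsetSum _ fun i _ => (continuous_apply i).smul continuous_const)

theorem box_empty [IsEmpty ι] (s : ι → M) : box s = {0} := by
  refine Subset.antisymm ?_ ?_
  · rintro _ ⟨c, -, rfl⟩
    simp
  · rintro _ rfl
    exact ⟨0, fun i _ => by simp, by simp⟩

theorem box_comp {κ : Type*} [Fintype κ] (e : ι ≃ κ) (s : κ → M) : box (s ∘ e) = box s := by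
  ext x
  constructor
  · rintro ⟨c, hc, rfl⟩
    refine ⟨c ∘ e.symm, fun i _ => hc _ trivial, ?_⟩
    show ∑ i, c (e.symm i) • s i = ∑ i, c i • s (e i)
    rw [← e.sum_comp]
    simp
  · rintro ⟨c, hc, rfl⟩
    refine ⟨c ∘ e, fun i _ => hc _ trivial, ?_⟩
    show ∑ i, c (e i) • s (e i) = ∑ i, c i • s i
    rw [e.sum_comp (fun i => c i • s i)]

theorem box_option (s : Option ι → M) : box s = box (fun i => s (some i)) + segm (s none) := by
  ext x
  constructor
  · rintro ⟨c, hc, rfl⟩
    refine ⟨_, ⟨fun i => c (some i), fun i _ => hc _ trivial, rfl⟩, _, ⟨c none, hc _ trivial, rfl⟩,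
      ?_⟩
    simp [Fintype.sum_option, add_comm]
  · rintro ⟨_, ⟨c, hc, rfl⟩, _, ⟨t, ht, rfl⟩, rfl⟩
    refine ⟨fun o => o.elim t c, fun o _ => ?_, ?_⟩
    · cases o with
      | none => exact ht
      | some i => exact hc i trivial
    · simp [Fintype.sum_option, add_comm]

/-- The unit vector in the first coordinate. -/
def ax (k : ℕ) : Fin (k + 1) → ℝ := Fin.cons 1 0

variable {k : ℕ}

theorem tail_smul_ax (t : ℝ) : Fin.tail (t • ax k) = 0 := by
  funext i
  simp [Fin.tail, ax]

theorem cons_eq_smul_ax (t : ℝ) (y : Fin k → ℝ) :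
    (Fin.cons t y : Fin (k + 1) → ℝ) = Fin.cons 0 y + t • ax k := by
  funext i
  refine Fin.cases ?_ (fun j => ?_) i <;> simp [ax]

/-- Volume by fibres along the first coordinate. -/
theorem volume_eq_lintegral {S : Set (Fin (k + 1) → ℝ)} (hS : MeasurableSet S) :
    volume S = ∫⁻ y, volume {t : ℝ | Fin.cons t y ∈ S} := by
  set e : (Fin (k + 1) → ℝ) ≃ᵐ ℝ × (Fin k → ℝ) :=
    MeasurableEquiv.piFinSuccAbove (fun _ => ℝ) 0 with he
  have hp : MeasurePreserving e.symm (volume : Measure (ℝ × (Fin k → ℝ))) volume :=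
    (volume_preserving_piFinSuccAbove (fun _ : Fin (k + 1) => ℝ) 0).symm
  have hc : ∀ p : ℝ × (Fin k → ℝ), e.symm p = Fin.cons p.1 p.2 := fun p => by
    simp [he, MeasurableEquiv.piFinSuccAbove, Fin.consEquiv]
  rw [← hp.measure_preimage hS.nullMeasurableSet, Measure.volume_eq_prod,
    Measure.prod_apply_symm (e.symm.measurable hS)]
  refine lintegral_congr fun y => ?_
  congr 1
  ext t
  simp [hc]

/-- Adding the unit segment along the first axis adds twice the projection. -/
theorem volume_add_segm_ax {K : Set (Fin (k + 1) → ℝ)} (hK : IsCompact K) (hc : Convex ℝ K) :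
    volume (K + segm (ax k)) = volume K + 2 * volume (Fin.tail '' K) := by
  have hT : IsCompact (Fin.tail '' K) :=
    hK.image (continuous_pi fun i => continuous_apply _)
  have hseg : IsCompact (segm (ax k)) := isCompact_Icc.image (by fun_prop)
  rw [volume_eq_lintegral (hK.add hseg).measurableSet, volume_eq_lintegral hK.measurableSet]
  have key : ∀ y : Fin k → ℝ, volume {t : ℝ | (Fin.cons t y : Fin (k + 1) → ℝ) ∈ K + segm (ax k)}
      = volume {t : ℝ | (Fin.cons t y : Fin (k + 1) → ℝ) ∈ K}
        + (Fin.tail '' K).indicator (fun _ => 2) y := by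
    intro y
    set F := {t : ℝ | (Fin.cons t y : Fin (k + 1) → ℝ) ∈ K} with hF
    have hmem : ∀ t : ℝ, (Fin.cons t y : Fin (k + 1) → ℝ) ∈ K + segm (ax k) ↔
        ∃ s ∈ F, |t - s| ≤ 1 := by
      intro t
      constructor
      · rintro ⟨a, ha, _, ⟨r, hr, rfl⟩, h⟩
        have h' : a = Fin.cons (t - r) y := by
          have : a = (Fin.cons t y : Fin (k + 1) → ℝ) - r • ax k := eq_sub_of_add_eq h
          rw [this, cons_eq_smul_ax t, cons_eq_smul_ax (t - r)]
          module
        refine ⟨t - r, by rw [hF, mem_ofPred_eq, ← h']; exact ha, ?_⟩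
        simpa using abs_le.2 hr
      · rintro ⟨s, hs, h⟩
        refine ⟨_, hs, _, ⟨t - s, abs_le.1 h, rfl⟩, ?_⟩
        show (Fin.cons s y : Fin (k + 1) → ℝ) + (t - s) • ax k = _
        rw [cons_eq_smul_ax s, cons_eq_smul_ax t]
        module
    rcases F.eq_empty_or_nonempty with he | hne
    · have h1 : y ∉ Fin.tail '' K := by
        rintro ⟨a, ha, rfl⟩
        have : a 0 ∈ F := by rw [hF, mem_ofPred_eq, Fin.cons_self_tail]; exact ha
        rw [he] at this
        exact this
      have h2 : {t : ℝ | (Fin.cons t y : Fin (k + 1) → ℝ) ∈ K + segm (ax k)} = ∅ :=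
        eq_empty_of_forall_notMem fun t ht => by
          obtain ⟨s, hs, -⟩ := (hmem t).1 ht
          rw [he] at hs
          exact hs
      rw [h2, he, indicator_of_notMem h1]
      simp
    · have hFc : IsCompact F := by
        refine (hK.image (continuous_apply (0 : Fin (k + 1)))).of_isClosed_subset
          (hK.isClosed.preimage (by fun_prop)) fun t ht => ⟨_, ht, Fin.cons_zero _ _⟩
      have hFconv : Convex ℝ F := by
        intro a ha b hb p q hp hq hpq
        have := hc ha hb hp hq hpq
        show (Fin.cons (p • a + q • b) y : Fin (k + 1) → ℝ) ∈ K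
        convert this using 1
        funext i
        refine Fin.cases ?_ (fun j => ?_) i
        · simp
        · simp [← add_mul, hpq]
      obtain ⟨a, ha⟩ := hFc.exists_isLeast hne
      obtain ⟨b, hb⟩ := hFc.exists_isGreatest hne
      have hFI : F = Icc a b := Subset.antisymm (fun t ht => ⟨ha.2 ht, hb.2 ht⟩)
        ((segment_eq_Icc (ha.2 hb.1)).symm.subset.trans (hFconv.segment_subset ha.1 hb.1))
      have h2 : {t : ℝ | (Fin.cons t y : Fin (k + 1) → ℝ) ∈ K + segm (ax k)}
          = Icc (a - 1) (b + 1) := by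
        ext t
        rw [mem_ofPred_eq, hmem, hFI]
        constructor
        · rintro ⟨s, hs, h⟩
          exact ⟨by linarith [(abs_le.1 h).1, hs.1], by linarith [(abs_le.1 h).2, hs.2]⟩
        · rintro ⟨h1, h2⟩
          refine ⟨max a (min t b), ⟨le_max_left _ _, max_le (ha.2 hb.1) (min_le_right _ _)⟩, ?_⟩
          rw [abs_le]
          constructor <;> rcases max_cases a (min t b) with h | h <;>
            rcases min_cases t b with h' | h' <;> linarith [ha.2 hb.1]
      have h1 : y ∈ Fin.tail '' K := ⟨_, hne.some_mem, Fin.tail_cons _ _⟩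
      rw [h2, hFI, indicator_of_mem h1, Real.volume_Icc, Real.volume_Icc,
        show b + 1 - (a - 1) = (b - a) + 2 by ring,
        ENNReal.ofReal_add (by linarith [ha.2 hb.1]) zero_le_two, ENNReal.ofReal_ofNat]
  simp only [key]
  rw [lintegral_add_right _ (measurable_const.indicator hT.measurableSet),
    lintegral_indicator_const hT.measurableSet]

/-- Adding a segment, in coordinates where it is the unit segment of the first axis. -/
theorem volume_real_add_segm {K : Set (Fin (k + 1) → ℝ)} (hK : IsCompact K) (hc : Convex ℝ K)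
    (T : (Fin (k + 1) → ℝ) ≃ₗ[ℝ] (Fin (k + 1) → ℝ)) {u : Fin (k + 1) → ℝ} (hu : T u = ax k) :
    volume.real (K + segm u) = volume.real K
      + 2 * volume.real (Fin.tail '' (T '' K))
          / |LinearMap.det (T : (Fin (k + 1) → ℝ) →ₗ[ℝ] (Fin (k + 1) → ℝ))| := by
  set d := LinearMap.det (T : (Fin (k + 1) → ℝ) →ₗ[ℝ] (Fin (k + 1) → ℝ)) with hd
  have hd0 : d ≠ 0 := (LinearEquiv.isUnit_det' T).ne_zero
  have hTc : Continuous T := T.toLinearMap.continuous_of_finiteDimensional
  have him : ∀ S, volume.real (T '' S) = |d| * volume.real S := fun S => by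
    rw [measureReal_def, measureReal_def]
    show (volume ((T : (Fin (k + 1) → ℝ) →ₗ[ℝ] (Fin (k + 1) → ℝ)) '' S)).toReal = _
    rw [Measure.addHaar_image_linearMap, ENNReal.toReal_mul, ENNReal.toReal_ofReal (abs_nonneg _)]
  have h := volume_add_segm_ax (hK.image hTc) (hc.linear_image T.toLinearMap)
  have e : (T : (Fin (k + 1) → ℝ) → Fin (k + 1) → ℝ) '' K + segm (ax k) = T '' (K + segm u) := by
    rw [Set.image_add, ← hu]
    congr 1
    exact (segm_map T.toLinearMap u).symm
  rw [e] at h
  have h' := congrArg ENNReal.toReal h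
  have hT' : IsCompact (Fin.tail '' (T '' K)) :=
    (hK.image hTc).image (continuous_pi fun i => continuous_apply _)
  rw [ENNReal.toReal_add (hK.image hTc).measure_lt_top.ne
    (ENNReal.mul_ne_top (by simp) hT'.measure_lt_top.ne),
    ENNReal.toReal_mul, ENNReal.toReal_ofNat] at h'
  simp only [← measureReal_def, him] at h'
  field_simp
  linarith

end Vale.Agent.P237.Zono
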