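import Mathlib
import Vale.Agent.P237.Zonotope.Fiber

/-!
The area of a sum of segments in the plane, and the volume gained by adding a segment to a sum of
segments in space.
-/

namespace Vale.Agent.P237.Zono

open MeasureTheory Set Pointwise Matrix

variable {ι : Type} [Fintype ι]

/-- The planar cross product. -/
def cross2 (a b : Fin 2 → ℝ) : ℝ := a 0 * b 1 - a 1 * b 0

theorem exists_equiv_ax {k : ℕ} {u : Fin (k + 1) → ℝ} (hu : u ≠ 0) :
    ∃ T : (Fin (k + 1) → ℝ) ≃ₗ[ℝ] (Fin (k + 1) → ℝ), T u = ax k := by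
  have h : ax k ≠ 0 := fun h => by simpa [ax] using congrFun h 0
  obtain ⟨A, hA⟩ := SeparatingDual.exists_continuousLinearEquiv_apply_eq (R := ℝ) hu h
  exact ⟨A.toLinearEquiv, hA⟩

theorem box_line (a : ι → ℝ) : box a = Icc (-∑ i, |a i|) (∑ i, |a i|) := by
  refine Subset.antisymm ?_ ?_
  · rintro _ ⟨c, hc, rfl⟩
    rw [mem_Icc, ← abs_le]
    refine (Finset.abs_sum_le_sum_abs _ _).trans (Finset.sum_le_sum fun i _ => ?_)
    rw [smul_eq_mul, abs_mul]
    exact mul_le_of_le_one_left (abs_nonneg _) (abs_le.2 (hc i trivial))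
  · intro x hx
    rcases eq_or_ne (∑ i, |a i|) 0 with h0 | h0
    · refine ⟨0, fun i _ => by simp, ?_⟩
      rw [h0, neg_zero] at hx
      simp [le_antisymm hx.2 hx.1]
    · refine ⟨fun i => x / (∑ j, |a j|) * SignType.sign (a i), fun i _ => ?_, ?_⟩
      · rw [mem_Icc, ← abs_le, abs_mul, abs_div, abs_of_nonneg (Finset.sum_nonneg (f := fun j => |a j|) fun j _ => abs_nonneg _)]
        refine mul_le_one₀ ?_ (abs_nonneg _) ?_
        · rw [div_le_one (lt_of_le_of_ne (Finset.sum_nonneg fun j _ => abs_nonneg _) h0.symm)]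
          exact abs_le.2 hx
        · rcases lt_trichotomy (a i) 0 with h | h | h <;> simp [h]
      · simp only [smul_eq_mul, mul_assoc, sign_mul_self, ← Finset.mul_sum]
        exact div_mul_cancel₀ _ h0

theorem area_proj_line (v : ι → Fin 1 → ℝ) :
    volume.real (box v) = 2 * ∑ i, |v i 0| := by
  have h := box_map (LinearMap.proj 0 : (Fin 1 → ℝ) →ₗ[ℝ] ℝ) v
  have hp := volume_preserving_funUnique (Fin 1) ℝ
  have e : box v = (MeasurableEquiv.funUnique (Fin 1) ℝ) ⁻¹' box fun i => v i 0 := by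
    ext x
    rw [mem_preimage]
    constructor
    · rintro ⟨c, hc, rfl⟩
      exact ⟨c, hc, by simp [MeasurableEquiv.funUnique]⟩
    · rintro ⟨c, hc, hx⟩
      refine ⟨c, hc, funext fun i => ?_⟩
      obtain rfl : i = 0 := Subsingleton.elim _ _
      simpa [MeasurableEquiv.funUnique] using hx
  have hv : volume ((MeasurableEquiv.funUnique (Fin 1) ℝ) ⁻¹' box fun i => v i 0)
      = volume (box fun i => v i 0) :=
    hp.measure_preimage_equiv _
  rw [e, measureReal_def, hv, box_line, Real.volume_Icc, ENNReal.toReal_ofReal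
      (by linarith [Finset.sum_nonneg (s := Finset.univ) fun i _ => abs_nonneg (v i 0)])]
  ring

theorem map_apply_eq_sum {n : ℕ} (T : (Fin n → ℝ) →ₗ[ℝ] (Fin n → ℝ)) (a : Fin n → ℝ) (j : Fin n) :
    T a j = ∑ k, a k * LinearMap.toMatrix' T j k := by
  rw [← LinearMap.toMatrix'_mulVec T a]
  simp [Matrix.mulVec, dotProduct, mul_comm]

theorem cross2_map (T : (Fin 2 → ℝ) →ₗ[ℝ] (Fin 2 → ℝ)) (a b : Fin 2 → ℝ) :
    cross2 (T a) (T b) = LinearMap.det T * cross2 a b := by
  have h : ∀ a b : Fin 2 → ℝ, cross2 a b = Matrix.det (Matrix.of ![a, b]) := fun a b => by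
    simp [cross2, Matrix.det_fin_two]
  have e : Matrix.of ![T a, T b] = Matrix.of ![a, b] * (LinearMap.toMatrix' T)ᵀ := by
    ext i j
    rw [Matrix.mul_apply]
    fin_cases i <;>
      simpa [-LinearMap.toMatrix'_apply, Fin.sum_univ_two] using map_apply_eq_sum T _ j
  rw [h, h, e, Matrix.det_mul, Matrix.det_transpose, LinearMap.det_toMatrix', mul_comm]

theorem area_add_segm (s : ι → Fin 2 → ℝ) (u : Fin 2 → ℝ) :
    volume.real (box s + segm u) = volume.real (box s) + 4 * ∑ i, |cross2 u (s i)| := by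
  rcases eq_or_ne u 0 with rfl | hu
  · have : segm (0 : Fin 2 → ℝ) = {0} := by
      rw [segm]
      simp
    simp [this, cross2]
  obtain ⟨T, hT⟩ := exists_equiv_ax hu
  rw [volume_real_add_segm (box_compact s) (box_convex s) T hT]
  have e1 : Fin.tail '' (T '' box s) = box fun i => Fin.tail (T (s i)) := by
    rw [show (T '' box s) = box fun i => T (s i) from box_map T.toLinearMap s]
    exact box_map (LinearMap.funLeft ℝ ℝ Fin.succ) _
  rw [e1, area_proj_line]
  set d := LinearMap.det (T : (Fin 2 → ℝ) →ₗ[ℝ] (Fin 2 → ℝ)) with hd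
  have hd0 : d ≠ 0 := (LinearEquiv.isUnit_det' T).ne_zero
  have e2 : ∀ i, |Fin.tail (T (s i)) 0| = |d| * |cross2 u (s i)| := fun i => by
    rw [← abs_mul, hd, ← cross2_map]
    simp [cross2, hT, ax, Fin.tail]
  simp only [e2, ← Finset.mul_sum]
  field_simp
  ring

theorem sum_option_pairs {M : Type*} [AddCommMonoid M] {α : Type*} [Fintype α]
    (f : Option α → Option α → M) :
    ∑ i, ∑ j, f i j = f none none + ∑ j, f none (some j) + ∑ i, f (some i) none
      + ∑ i, ∑ j, f (some i) (some j) := by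
  simp only [Fintype.sum_option, Finset.sum_add_distrib]
  abel

/-- The area of a sum of segments in the plane. -/
theorem area_box (s : ι → Fin 2 → ℝ) :
    volume.real (box s) = 2 * ∑ i, ∑ j, |cross2 (s i) (s j)| := by
  revert s
  refine Fintype.induction_empty_option (P := fun α inst =>
    ∀ s : α → Fin 2 → ℝ, volume.real (@box _ _ _ α inst s)
      = 2 * ∑ i, ∑ j, |cross2 (s i) (s j)|) ?_ ?_ ?_ ι
  · intro α β _ e h s
    let := Fintype.ofEquiv β e.symm
    rw [← box_comp e, h (s ∘ e)]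
    congr 1
    rw [← e.sum_comp]
    exact Finset.sum_congr rfl fun i _ => e.sum_comp (fun j => |cross2 (s (e i)) (s j)|)
  · intro s
    simp [box_empty, measureReal_def]
  · intro α _ h s
    rw [box_option, area_add_segm, h, sum_option_pairs]
    have e : ∀ i, |cross2 (s (some i)) (s none)| = |cross2 (s none) (s (some i))| := fun i => by
      rw [cross2, cross2, abs_sub_comm]
      simp [mul_comm]
    simp only [e]
    simp [cross2, mul_comm]
    ring

theorem triple_map (T : (Fin 3 → ℝ) →ₗ[ℝ] (Fin 3 → ℝ)) (a b c : Fin 3 → ℝ) :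
    T a ⬝ᵥ T b ⨯₃ T c = LinearMap.det T * (a ⬝ᵥ b ⨯₃ c) := by
  have e : Matrix.of ![T a, T b, T c] = Matrix.of ![a, b, c] * (LinearMap.toMatrix' T)ᵀ := by
    ext i j
    rw [Matrix.mul_apply]
    fin_cases i <;>
      simpa [-LinearMap.toMatrix'_apply, Fin.sum_univ_three] using map_apply_eq_sum T _ j
  rw [triple_product_eq_det, triple_product_eq_det]
  show Matrix.det (Matrix.of ![T a, T b, T c]) = _ * Matrix.det (Matrix.of ![a, b, c])
  rw [e, Matrix.det_mul, Matrix.det_transpose, LinearMap.det_toMatrix', mul_comm]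

/-- The volume gained by adding a segment to a sum of segments in space. -/
theorem volume_add_segm (s : ι → Fin 3 → ℝ) (u : Fin 3 → ℝ) :
    volume.real (box s + segm u) = volume.real (box s) + 4 * ∑ i, ∑ j, |u ⬝ᵥ s i ⨯₃ s j| := by
  rcases eq_or_ne u 0 with rfl | hu
  · have : segm (0 : Fin 3 → ℝ) = {0} := by
      rw [segm]
      simp
    simp [this]
  obtain ⟨T, hT⟩ := exists_equiv_ax hu
  rw [volume_real_add_segm (box_compact s) (box_convex s) T hT]
  have e1 : Fin.tail '' (T '' box s) = box fun i => Fin.tail (T (s i)) := by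
    rw [show (T '' box s) = box fun i => T (s i) from box_map T.toLinearMap s]
    exact box_map (LinearMap.funLeft ℝ ℝ Fin.succ) _
  rw [e1, area_box]
  set d := LinearMap.det (T : (Fin 3 → ℝ) →ₗ[ℝ] (Fin 3 → ℝ)) with hd
  have hd0 : d ≠ 0 := (LinearEquiv.isUnit_det' T).ne_zero
  have e2 : ∀ i j, |cross2 (Fin.tail (T (s i))) (Fin.tail (T (s j)))|
      = |d| * |u ⬝ᵥ s i ⨯₃ s j| := fun i j => by
    rw [← abs_mul, hd, ← triple_map]
    simp [cross2, hT, ax, Fin.tail, cross_apply, Matrix.vecHead, Matrix.vecTail]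
  simp only [e2, ← Finset.mul_sum]
  field_simp
  ring

theorem sum_option_triples {M : Type*} [AddCommMonoid M] {α : Type*} [Fintype α]
    (f : Option α → Option α → Option α → M) (h1 : ∀ a c, f a a c = 0) (h2 : ∀ a c, f a c a = 0)
    (h3 : ∀ a c, f c a a = 0) :
    ∑ i, ∑ j, ∑ k, f i j k = ∑ i, ∑ j, ∑ k, f (some i) (some j) (some k)
      + ∑ j, ∑ k, f none (some j) (some k) + ∑ i, ∑ k, f (some i) none (some k)
      + ∑ i, ∑ j, f (some i) (some j) none := by
  simp only [Fintype.sum_option, Finset.sum_add_distrib, h1, h2, h3]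
  simp
  abel

/-- The volume of a sum of segments in space. -/
theorem volume_box (s : ι → Fin 3 → ℝ) :
    volume.real (box s) = 4 / 3 * ∑ i, ∑ j, ∑ k, |s i ⬝ᵥ s j ⨯₃ s k| := by
  revert s
  refine Fintype.induction_empty_option (P := fun α inst =>
    ∀ s : α → Fin 3 → ℝ, volume.real (@box _ _ _ α inst s)
      = 4 / 3 * ∑ i, ∑ j, ∑ k, |s i ⬝ᵥ s j ⨯₃ s k|) ?_ ?_ ?_ ι
  · intro α β _ e h s
    let := Fintype.ofEquiv β e.symm
    rw [← box_comp e, h (s ∘ e)]
    congr 1
    rw [← e.sum_comp]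
    refine Finset.sum_congr rfl fun i _ => ?_
    rw [← e.sum_comp]
    exact Finset.sum_congr rfl fun j _ =>
      e.sum_comp (fun k => |s (e i) ⬝ᵥ s (e j) ⨯₃ s k|)
  · intro s
    simp [box_empty, measureReal_def]
  · intro α _ h s
    rw [box_option, volume_add_segm, h, sum_option_triples]
    · have e1 : ∀ a b c : Fin 3 → ℝ, |b ⬝ᵥ a ⨯₃ c| = |a ⬝ᵥ b ⨯₃ c| := fun a b c => by
        rw [triple_product_permutation b a c, ← cross_anticomm b c, dotProduct_neg, abs_neg]
      have e2 : ∀ a b c : Fin 3 → ℝ, |b ⬝ᵥ c ⨯₃ a| = |a ⬝ᵥ b ⨯₃ c| := fun a b c => by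
        rw [← triple_product_permutation a b c]
      simp only [e1 (s none), e2 (s none)]
      ring
    · intro a c; simp [dot_self_cross]
    · intro a c; simp [dot_cross_self]
    · intro a c; simp [cross_self]

end Vale.Agent.P237.Zono
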